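import Vale.Agent.P298.Main.Wire4
import Vale.Agent.P298.Main.Glob
import Vale.Agent.P298.H471.LinkOut

/-!
P298 (helper77): the full theorem.
-/

namespace Vale.Agent.P298.Main

open Metric Vale.Agent.P298

/-- Every `μ`-constant family of surface germs in `ℂ³` is topologically right-trivial. -/
theorem fullStmt : FullStmt := full_of_e1 H471.e1Stmt

/-- The three conclusions. -/
theorem final {r : ℝ} (hr : 0 < r) {F : (Fin 3 → ℂ) → ℂ → ℂ} (hF : IsHolFamily r F) {μ : ℕ}
    (hμ : ∀ t ∈ ball (0 : ℂ) r, Milnor (F · t) μ) :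
    TopRightTrivial r F ∧
    (∀ t ∈ ball (0 : ℂ) r, ∀ t' ∈ ball (0 : ℂ) r, TopRightEquiv (F · t) (F · t')) ∧
    ∀ t ∈ ball (0 : ℂ) r, SameEmbType (F · 0) (F · t) :=
  ⟨fullStmt r hr F hF μ hμ, topRightEquiv_of_full fullStmt hF hμ, fun t ht =>
    TopRightEquiv.sameEmbType
      (topRightEquiv_of_full fullStmt hF hμ 0 (mem_ball_self hr) t ht)⟩

end Vale.Agent.P298.Main
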