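import Vale.Agent.P298.Main.Wire
import Vale.Agent.P298.H39.GeoOut
import Vale.Agent.P298.H475.Kum
import Vale.Agent.P298.H98.OTOut
import Vale.Agent.P298.H379.Out2

/-!
P298, top level (helper77): blocks S1, OT, RV, EXT wired in.
-/

open scoped NNReal

namespace Vale.Agent.P298.Main

open Vale.Agent.P298

theorem s1Out : S1Out :=
  ⟨1 / 11, 8000, by norm_num, by norm_num, fun _ _ _ F e =>
    ⟨H475.s1R H39.s1AllR F e, H475.s1P2 H39.s1AllP2 F e⟩⟩

theorem rvKK : H740.RVKK := H379.rvKK s1Out H98.otOut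

theorem extOut : ExtOut := H379.ext_out s1Out H98.otOut

/-- State of the assembly: what is still open. -/
theorem full_of_open₂ (hE1 : E1Stmt) (hLC : LCStmt) (hLow : H740.LowOut) (hB : H740.LemBOut) :
    FullStmt :=
  full_of_open hE1 hLC hLow hB rvKK extOut

end Vale.Agent.P298.Main
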