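import Vale.Agent.P298.Main.Wire2
import Vale.Agent.P298.H790.Out
import Vale.Agent.P298.H379.Lo5

/-!
P298, top level (helper77): block LC and the lower bound LOW wired in.
-/

namespace Vale.Agent.P298.Main

open Vale.Agent.P298

theorem lcStmt : LCStmt := H790.lcStmt (H740.rvNat_of_KK rvKK)

/-- State of the assembly: what is still open. -/
theorem full_of_open₃ (hE1 : E1Stmt) (hB : H740.LemBOut) : FullStmt :=
  full_of_open₂ hE1 lcStmt H379.lowOut hB

end Vale.Agent.P298.Main
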