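import Vale.Agent.P298.Main.Wire3
import Vale.Agent.P298.H740.LB5

/-!
P298, top level (helper77): everything is wired except block E1.
-/

namespace Vale.Agent.P298.Main

open Vale.Agent.P298

/-- State of the assembly: only block E1 is open. -/
theorem full_of_e1 (hE1 : E1Stmt) : FullStmt := full_of_open₃ hE1 H740.lemBOut

end Vale.Agent.P298.Main
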